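import Crest.Agent.R108.Slice

/-!
# The abstract core: systems of moves in a separable reflexive space
-/

set_option autoImplicit false

open Filter Topology Set

namespace Crest.Agent.R108

variable {X : Type*} [NormedAddCommGroup X] [NormedSpace ℝ X]

/-- A system of states with weights `w`, positions `P` in a closed convex set `K` and moves
`R δ s t` of accuracy `δ`. -/
structure Sys (X : Type*) [NormedAddCommGroup X] [NormedSpace ℝ X] (S : Type*) where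
  w : S → ℝ
  P : S → X
  K : Set X
  R : ℝ → S → S → Prop
  K_convex : Convex ℝ K
  K_closed : IsClosed K
  P_mem : ∀ s, P s ∈ K
  mono : ∀ δ δ' s t, δ ≤ δ' → R δ s t → R δ' s t
  trans : ∀ δ s t u, R δ s t → R δ t u → R δ s u
  ex : ∀ δ s r, 0 < δ → 0 < r → r < w s → ∃ t, R δ s t ∧ w t = r
  lip : ∀ δ s t, R δ s t → ‖P t - P s‖ ≤ w s - w t
  sep : ∀ s, ∀ a ∈ K, ∀ ε, 0 < ε → ∃ δ, 0 < δ ∧ ∀ t, R δ s t → w s - w t - ε ≤ ‖P t - a‖

namespace Sys

variable {S : Type*} (Z : Sys X S)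

/-- The normalised displacement of a move. -/
noncomputable def D (s t : S) : X := (Z.w s - Z.w t)⁻¹ • (Z.P t - Z.P s)

theorem norm_D_le {δ : ℝ} {s t : S} (h : Z.R δ s t) (hw : Z.w t < Z.w s) : ‖Z.D s t‖ ≤ 1 := by
  have hp : 0 < Z.w s - Z.w t := sub_pos.2 hw
  rw [D, norm_smul, Real.norm_eq_abs, abs_of_pos (inv_pos.2 hp), inv_mul_le_iff₀ hp, mul_one]
  exact Z.lip δ s t h

/-- The weak cluster set of the displacements of accurate moves from `s` to the weight `r`. -/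
def Cl (s : S) (r : ℝ) : Set X :=
  {α | ∀ δ, 0 < δ → ∀ Ψ : Finset (StrongDual ℝ X),
    ∃ t, Z.R δ s t ∧ Z.w t = r ∧ ∀ ψ ∈ Ψ, |ψ (Z.D s t - α)| ≤ δ}

theorem eventually_abs_le {A : Type*} {l : Filter A} {f : A → X} {x : X} (h : WLim l f x)
    (Ψ : Finset (StrongDual ℝ X)) {δ : ℝ} (hδ : 0 < δ) :
    ∀ᶠ a in l, ∀ ψ ∈ Ψ, |ψ (f a - x)| ≤ δ := by
  rw [Finset.eventually_all]
  intro ψ _
  filter_upwards [Metric.tendsto_nhds.1 (h ψ) δ hδ] with a ha
  rw [map_sub, ← Real.dist_eq]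
  exact ha.le

theorem mem_Cl_of_wlim {A : Type*} {l : Filter A} [l.NeBot] {s : S} {r : ℝ} {f : A → S} {α : X}
    (hR : ∀ δ, 0 < δ → ∀ᶠ a in l, Z.R δ s (f a)) (hw : ∀ᶠ a in l, Z.w (f a) = r)
    (h : WLim l (fun a => Z.D s (f a)) α) : α ∈ Z.Cl s r := by
  intro δ hδ Ψ
  obtain ⟨a, h1, h2, h3⟩ := ((hR δ hδ).and (hw.and (eventually_abs_le h Ψ hδ))).exists
  exact ⟨f a, h1, h2, h3⟩

theorem exists_mem_Cl (hX : Refl X) {s : S} {r : ℝ} (hr : 0 < r) (hrs : r < Z.w s) :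
    ∃ α ∈ Z.Cl s r, ‖α‖ ≤ 1 := by
  obtain ⟨U, hU⟩ := exists_ultrafilter_of_mono (fun δ => {t | Z.R δ s t ∧ Z.w t = r})
    (fun δ δ' _ hδ t ht => ⟨Z.mono _ _ _ _ hδ ht.1, ht.2⟩) (fun δ hδ => Z.ex δ s r hδ hr hrs)
  have hb : ∀ᶠ t in (U : Filter S), ‖Z.D s t‖ ≤ 1 := by
    filter_upwards [hU 1 one_pos] with t ht using Z.norm_D_le ht.1 (by rw [ht.2]; exact hrs)
  obtain ⟨α, hα⟩ := exists_wlim hX U (fun t => Z.D s t) 1 hb
  refine ⟨α, Z.mem_Cl_of_wlim (l := (U : Filter S)) (f := id) (fun δ hδ => ?_) ?_ hα, ?_⟩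
  · filter_upwards [hU δ hδ] with t ht using ht.1
  · filter_upwards [hU 1 one_pos] with t ht using ht.2
  · simpa using hα.norm_sub_le (y := 0) (r := 1) (by simpa using hb)

theorem Cl_wclosed {l : Filter X} [l.NeBot] {s : S} {r : ℝ} {α : X} (h : WLim l id α)
    (hl : ∀ᶠ x in l, x ∈ Z.Cl s r) : α ∈ Z.Cl s r := by
  intro δ hδ Ψ
  obtain ⟨x, hx, hx'⟩ := (hl.and (eventually_abs_le h Ψ (half_pos hδ))).exists
  obtain ⟨t, h1, h2, h3⟩ := hx (δ / 2) (half_pos hδ) Ψ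
  refine ⟨t, Z.mono _ _ _ _ (half_le_self hδ.le) h1, h2, fun ψ hψ => ?_⟩
  have e : Z.D s t - α = (Z.D s t - x) + (id x - α) := by simp
  rw [e, map_add]
  exact (abs_add_le _ _).trans (by linarith [h3 ψ hψ, hx' ψ hψ])

/-- Closed convex subsets of the unit ball meeting all cluster sets. -/
def Fam : Set (Set X) :=
  {C | IsClosed C ∧ Convex ℝ C ∧ (∀ x ∈ C, ‖x‖ ≤ 1) ∧
    ∀ s r, 0 < r → r < Z.w s → (C ∩ Z.Cl s r).Nonempty}

theorem exists_minimal (hX : Refl X) : ∃ C, Minimal (· ∈ Z.Fam) C := by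
  have hB : Metric.closedBall (0 : X) 1 ∈ Z.Fam := by
    refine ⟨Metric.isClosed_closedBall, convex_closedBall _ _,
      fun x hx => mem_closedBall_zero_iff.1 hx, fun s r hr hrs => ?_⟩
    obtain ⟨α, h1, h2⟩ := Z.exists_mem_Cl hX hr hrs
    exact ⟨α, mem_closedBall_zero_iff.2 h2, h1⟩
  suffices H : ∀ c ⊆ Z.Fam, IsChain (· ⊆ ·) c → c.Nonempty → ∃ lb ∈ Z.Fam, ∀ s ∈ c, lb ⊆ s by
    obtain ⟨m, -, hm⟩ := zorn_superset_nonempty Z.Fam H _ hB
    exact ⟨m, hm⟩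
  intro c hc hchain hne
  refine ⟨⋂₀ c, ⟨isClosed_sInter fun C hC => (hc hC).1, convex_sInter fun C hC => (hc hC).2.1,
    fun x hx => ?_, fun s r hr hrs => ?_⟩, fun C hC => sInter_subset_of_mem hC⟩
  · obtain ⟨C, hC⟩ := hne
    exact (hc hC).2.2.1 x (hx C hC)
  · have : Nonempty c := hne.to_subtype
    obtain ⟨U, hU⟩ := exists_ultrafilter_of_directed (fun C : c => C.1 ∩ Z.Cl s r)
      (fun a b => by
        rcases hchain.total a.2 b.2 with h | h
        · exact ⟨a, fun x hx => hx, fun x hx => ⟨h hx.1, hx.2⟩⟩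
        · exact ⟨b, fun x hx => ⟨h hx.1, hx.2⟩, fun x hx => hx⟩)
      (fun C => (hc C.2).2.2.2 s r hr hrs)
    obtain ⟨C₀, hC₀⟩ := hne
    obtain ⟨α, hα⟩ := exists_wlim hX U id 1 (by
      filter_upwards [hU ⟨C₀, hC₀⟩] with x hx using (hc hC₀).2.2.1 x hx.1)
    refine ⟨α, fun C hC => hα.mem (hc hC).2.1 (hc hC).1 ?_, Z.Cl_wclosed hα ?_⟩
    · filter_upwards [hU ⟨C, hC⟩] with x hx using hx.1
    · filter_upwards [hU ⟨C₀, hC₀⟩] with x hx using hx.2

/-- Moves can be chosen weakly close to `C` with an additional one-sided bound `a` on `L`. -/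
def Good {B : Type*} (ev : B → StrongDual ℝ X) (C : Set X) (L : Set B) (a : ℝ) : Prop :=
  ∀ s r, 0 < r → r < Z.w s → ∀ δ, 0 < δ → ∀ Ψ : Finset (StrongDual ℝ X),
    ∃ t, ∃ c ∈ C, Z.R δ s t ∧ Z.w t = r ∧ (∀ ψ ∈ Ψ, |ψ (Z.D s t - c)| ≤ δ) ∧
      ∀ b ∈ L, ev b (Z.D s t - c) ≤ a

/-- The ideal of sets of constraints that can be added for free. -/
def Free {B : Type*} (ev : B → StrongDual ℝ X) (C : Set X) (κ : ℝ) (L : Set B) : Prop :=
  ∀ L', (∀ a, κ < a → Z.Good ev C L' a) → ∀ a, κ < a → Z.Good ev C (L ∪ L') a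

variable {B : Type*} {ev : B → StrongDual ℝ X} {C : Set X} {κ : ℝ}

theorem Good.anti {L L' : Set B} {a : ℝ} (h : Z.Good ev C L' a) (hL : L ⊆ L') :
    Z.Good ev C L a := by
  intro s r hr hrs δ hδ Ψ
  obtain ⟨t, c, hc, h1, h2, h3, h4⟩ := h s r hr hrs δ hδ Ψ
  exact ⟨t, c, hc, h1, h2, h3, fun b hb => h4 b (hL hb)⟩

theorem free_empty : Z.Free ev C κ ∅ := fun L' h a ha => by simpa using h a ha

theorem free_anti (L L' : Set B) (hL : L ⊆ L') (h : Z.Free ev C κ L') : Z.Free ev C κ L :=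
  fun L'' h' a ha => (h L'' h' a ha).anti Z (union_subset_union_left _ hL)

theorem free_union (L L' : Set B) (h : Z.Free ev C κ L) (h' : Z.Free ev C κ L') :
    Z.Free ev C κ (L ∪ L') := fun L'' h'' a ha => by
  rw [union_assoc]
  exact h _ (h' L'' h'') a ha

theorem good_empty (hC : C ∈ Z.Fam) (a : ℝ) : Z.Good ev C ∅ a := by
  intro s r hr hrs δ hδ Ψ
  obtain ⟨c, hcC, hc⟩ := hC.2.2.2 s r hr hrs
  obtain ⟨t, h1, h2, h3⟩ := hc δ hδ Ψ
  exact ⟨t, c, hcC, h1, h2, h3, fun b hb => hb.elim⟩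

/-- The block construction. -/
theorem free_of_blocks (hconv : Convex ℝ C) (hC1 : ∀ x ∈ C, ‖x‖ ≤ 1) (hev : ∀ b, ‖ev b‖ ≤ 1)
    (hκ : 0 < κ) (ψ₀ : StrongDual ℝ X) (L : Set B)
    (hL : ∀ n : X, ‖n‖ ≤ 2 → ψ₀ n ≤ κ / 4 → Z.Free ev C κ {b | b ∈ L ∧ κ ≤ ev b n}) :
    Z.Free ev C κ L := by
  classical
  intro L' hL' a ha s r hr hrs δ hδ Ψ
  set a' := (κ + a) / 2 with ha'
  have hκa' : κ < a' := by rw [ha']; linarith
  have haa' : 0 < a - a' := by rw [ha']; linarith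
  obtain ⟨N, hN⟩ := exists_nat_gt (2 / (a - a'))
  have hN0 : (0 : ℝ) < N := lt_trans (by positivity) hN
  have hN2 : 2 ≤ N * (a - a') := by
    rw [div_lt_iff₀ haa'] at hN
    exact hN.le
  set h := (Z.w s - r) / N with hh
  have hh0 : 0 < h := div_pos (sub_pos.2 hrs) hN0
  have hNh : N * h = Z.w s - r := by rw [hh]; field_simp
  obtain ⟨-, c₀, hc₀, -⟩ := hL' a ha s r hr hrs δ hδ Ψ
  have key : ∀ i : ℕ, i ≤ N → ∃ t, ∃ c ∈ C, ∃ M : Set B, Z.Free ev C κ M ∧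
      (t = s ∨ Z.R δ s t) ∧ Z.w t = Z.w s - i * h ∧
      (∀ ψ ∈ Ψ, |ψ (h⁻¹ • (Z.P t - Z.P s) - (i : ℝ) • c)| ≤ i * δ) ∧
      (∀ b ∈ L', ev b (h⁻¹ • (Z.P t - Z.P s) - (i : ℝ) • c) ≤ i * a') ∧
      (∀ b ∈ L, b ∉ M → ev b (h⁻¹ • (Z.P t - Z.P s) - (i : ℝ) • c) ≤ i * a') ∧
      (∀ b ∈ M, ev b (h⁻¹ • (Z.P t - Z.P s) - (i : ℝ) • c) ≤ i * a' + 2) := by
    intro i
    induction i with
    | zero =>
      intro _
      exact ⟨s, c₀, hc₀, ∅, Z.free_empty, Or.inl rfl, by simp, by simp, by simp, by simp, by simp⟩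
    | succ i ih =>
      intro hi
      obtain ⟨t, c, hc, M, hM, hts, hwt, h1, h2, h3, h4⟩ := ih (Nat.le_of_succ_le hi)
      have hiN : (i : ℝ) + 1 ≤ N := by exact_mod_cast hi
      have hr' : 0 < Z.w t - h := by
        have : ((i : ℝ) + 1) * h ≤ N * h := mul_le_mul_of_nonneg_right hiN hh0.le
        rw [hwt]; linarith
      obtain ⟨t', c', hc', g1, g2, g3, g4⟩ := hM L' hL' a' hκa' t (Z.w t - h) hr' (by linarith)
        (min δ (κ / 4)) (lt_min hδ (by positivity)) (insert ψ₀ Ψ)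
      set n' := Z.D t t' - c' with hn'
      have hn'2 : ‖n'‖ ≤ 2 := by
        have := norm_sub_le (Z.D t t') c'
        have h5 := Z.norm_D_le g1 (by rw [g2]; linarith)
        linarith [hC1 c' hc']
      have hψ₀ : ψ₀ n' ≤ κ / 4 :=
        (le_abs_self _).trans ((g3 ψ₀ (Finset.mem_insert_self _ _)).trans (min_le_right _ _))
      have hi1 : (0 : ℝ) < (i : ℝ) + 1 := by positivity
      have e : h⁻¹ • (Z.P t' - Z.P s) - ((i + 1 : ℕ) : ℝ) •
          (((i : ℝ) / ((i : ℝ) + 1)) • c + (1 / ((i : ℝ) + 1)) • c') =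
          (h⁻¹ • (Z.P t - Z.P s) - (i : ℝ) • c) + n' := by
        have e1 : ((i : ℝ) + 1) * ((i : ℝ) / ((i : ℝ) + 1)) = i := by field_simp
        have e2 : ((i : ℝ) + 1) * (1 / ((i : ℝ) + 1)) = 1 := by field_simp
        rw [hn', D, g2, sub_sub_cancel, Nat.cast_succ, smul_add, smul_smul, smul_smul, e1, e2]
        module
      refine ⟨t', ((i : ℝ) / ((i : ℝ) + 1)) • c + (1 / ((i : ℝ) + 1)) • c',
        hconv hc hc' (by positivity) (by positivity) (by field_simp),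
        M ∪ {b | b ∈ L ∧ κ ≤ ev b n'}, Z.free_union _ _ hM (hL n' hn'2 hψ₀), Or.inr ?_, ?_,
        fun ψ hψ => ?_, fun b hb => ?_, fun b hb hbM => ?_, fun b hb => ?_⟩
      · have g1' := Z.mono _ _ _ _ (min_le_left _ _) g1
        rcases hts with rfl | hts
        · exact g1'
        · exact Z.trans _ _ _ _ hts g1'
      · rw [g2, hwt]; push_cast; ring
      · rw [e, map_add]
        have := (g3 ψ (Finset.mem_insert_of_mem hψ)).trans (min_le_left _ _)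
        refine (abs_add_le _ _).trans ?_
        push_cast
        linarith [h1 ψ hψ]
      · rw [e, map_add]
        push_cast
        linarith [h2 b hb, g4 b (Or.inr hb)]
      · rw [e, map_add]
        have hb1 : b ∉ M := fun h => hbM (Or.inl h)
        have hb2 : ev b n' < κ := by
          by_contra hcon
          exact hbM (Or.inr ⟨hb, not_lt.1 hcon⟩)
        push_cast
        linarith [h3 b hb hb1]
      · rw [e, map_add]
        push_cast
        by_cases hbM : b ∈ M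
        · linarith [h4 b hbM, g4 b (Or.inl hbM)]
        · have hbL : b ∈ L := by
            rcases hb with hb | hb
            · exact absurd hb hbM
            · exact hb.1
          linarith [h3 b hbL hbM, (dual_le_norm (hev b) n').trans hn'2]
  obtain ⟨t, c, hc, M, -, hts, hwt, h1, h2, h3, h4⟩ := key N le_rfl
  have hwt' : Z.w t = r := by rw [hwt, hNh]; ring
  have hR : Z.R δ s t := by
    rcases hts with rfl | hts
    · exact absurd hwt' hrs.ne'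
    · exact hts
  have e : h⁻¹ • (Z.P t - Z.P s) - (N : ℝ) • c = (N : ℝ) • (Z.D s t - c) := by
    rw [D, hwt', ← hNh, smul_sub (N : ℝ), smul_smul]
    congr 2
    field_simp
  rw [e] at h1 h2 h3 h4
  simp only [map_smul, smul_eq_mul] at h1 h2 h3 h4
  refine ⟨t, c, hc, hR, hwt', fun ψ hψ => ?_, fun b hb => ?_⟩
  · have := h1 ψ hψ
    rw [abs_mul, abs_of_pos hN0] at this
    exact le_of_mul_le_mul_left this hN0
  · refine le_of_mul_le_mul_left ?_ hN0
    have h5 : (N : ℝ) * a' + 2 ≤ N * a := by linarith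
    rcases hb with hb | hb
    · by_cases hbM : b ∈ M
      · linarith [h4 b hbM]
      · linarith [h3 b hb hbM]
    · linarith [h2 b hb]

/-- Moves can be chosen weakly close and `1/4`-close in norm to a point of `C`. -/
theorem exists_norm_close [TopologicalSpace.SeparableSpace (StrongDual ℝ X)] (hC : C ∈ Z.Fam)
    {s : S} {r : ℝ} (hr : 0 < r) (hrs : r < Z.w s) {δ : ℝ} (hδ : 0 < δ)
    (Ψ : Finset (StrongDual ℝ X)) :
    ∃ t, ∃ c ∈ C, Z.R δ s t ∧ Z.w t = r ∧ (∀ ψ ∈ Ψ, |ψ (Z.D s t - c)| ≤ δ) ∧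
      ‖Z.D s t - c‖ ≤ 1 / 4 := by
  let Bs : Set (WeakDual ℝ X) := WeakDual.toStrongDual ⁻¹' Metric.closedBall 0 1
  have : CompactSpace Bs := isCompact_iff_compactSpace.1 (WeakDual.isCompact_closedBall 0 1)
  let ev : Bs → StrongDual ℝ X := fun b => WeakDual.toStrongDual b.1
  have hev : ∀ b, ‖ev b‖ ≤ 1 := fun b => mem_closedBall_zero_iff.1 b.2
  have : Nonempty (StrongDual ℝ X) := ⟨0⟩
  set φ := TopologicalSpace.denseSeq (StrongDual ℝ X) with hφdef
  have hφ : DenseRange φ := TopologicalSpace.denseRange_denseSeq _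
  have hfree : Z.Free ev C (1 / 8) univ := by
    refine kernel_lemma (Z.Free ev C (1 / 8)) Z.free_empty Z.free_anti Z.free_union
      (fun k : ℕ => ((↑) : Bs → WeakDual ℝ X) ⁻¹'
        (WeakDual.toStrongDual ⁻¹' Metric.closedBall (φ k) (1 / 32)))
      (fun k => (WeakDual.isClosed_closedBall _ _).preimage continuous_subtype_val) ?_ ?_
    · refine eq_univ_of_forall fun b => ?_
      obtain ⟨k, hk⟩ := hφ.exists_dist_lt (ev b) (by norm_num : (0 : ℝ) < 1 / 32)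
      exact mem_iUnion.2 ⟨k, hk.le⟩
    · intro k L hL H
      refine Z.free_of_blocks hC.2.1 hC.2.2.1 hev (by norm_num) (φ k) L fun n hn hn' => ?_
      refine H _ (hL.inter (isClosed_le continuous_const
        ((WeakDual.eval_continuous n).comp continuous_subtype_val))) (fun b hb => hb.1) ?_
      rw [disjoint_left]
      rintro b ⟨-, hb⟩ hb'
      have h1 : ‖ev b - φ k‖ ≤ 1 / 32 := mem_closedBall_iff_norm.1 hb'
      have h2 := (ev b - φ k).le_opNorm n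
      have h3 : ‖ev b - φ k‖ * ‖n‖ ≤ 1 / 32 * 2 :=
        mul_le_mul h1 hn (norm_nonneg _) (by norm_num)
      have h4 : (ev b - φ k) n ≤ ‖(ev b - φ k) n‖ := le_abs_self _
      rw [sub_apply] at h4
      rw [sub_apply] at h2
      linarith
  obtain ⟨t, c, hc, h1, h2, h3, h4⟩ := hfree ∅ (fun a _ => Z.good_empty hC a) (1 / 4)
    (by norm_num) s r hr hrs δ hδ Ψ
  refine ⟨t, c, hc, h1, h2, h3, norm_le_of_forall_dual fun ψ hψ => ?_⟩
  exact h4 ⟨StrongDual.toWeakDual ψ, mem_closedBall_zero_iff.2 hψ⟩ (Or.inl (mem_univ _))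

/-- There is no system with a state of positive weight in a separable reflexive space. -/
theorem weight_nonpos [TopologicalSpace.SeparableSpace X]
    [TopologicalSpace.SeparableSpace (StrongDual ℝ X)] (hX : Refl X) (s₀ : S) : Z.w s₀ ≤ 0 := by
  by_contra hs₀
  push Not at hs₀
  obtain ⟨C, hC, hmin⟩ := Z.exists_minimal hX
  have hne : C.Nonempty := (hC.2.2.2 s₀ (Z.w s₀ / 2) (half_pos hs₀) (half_lt_self hs₀)).mono
    inter_subset_left
  obtain ⟨ψ₀, β, x₀, ⟨c₀, hc₀, hc₀β⟩, hsl⟩ := exists_small_slice hX hne hC.1 hC.2.1 hC.2.2.1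
    (by norm_num : (0 : ℝ) < 1 / 8)
  have hC₁ : C ∩ {x | ψ₀ x ≤ β} ∈ Z.Fam := by
    refine ⟨hC.1.inter (isClosed_le ψ₀.continuous continuous_const),
      hC.2.1.inter (convex_halfSpace_le ψ₀.toLinearMap.isLinear β),
      fun x hx => hC.2.2.1 x hx.1, fun s r hr hrs => ?_⟩
    obtain ⟨U, hU⟩ := exists_ultrafilter_of_mono₂
      (fun δ (Ψ : Finset (StrongDual ℝ X)) => {p : S × X | p.2 ∈ C ∧ Z.R δ s p.1 ∧ Z.w p.1 = r ∧
        (∀ ψ ∈ Ψ, |ψ (Z.D s p.1 - p.2)| ≤ δ) ∧ ‖Z.D s p.1 - p.2‖ ≤ 1 / 4})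
      (fun δ δ' Ψ Ψ' _ hδ hΨ p hp => ⟨hp.1, Z.mono _ _ _ _ hδ hp.2.1, hp.2.2.1,
        fun ψ hψ => (hp.2.2.2.1 ψ (hΨ hψ)).trans hδ, hp.2.2.2.2⟩)
      (fun δ Ψ hδ => by
        obtain ⟨t, c, h⟩ := Z.exists_norm_close hC hr hrs hδ Ψ
        exact ⟨(t, c), h⟩)
    have hUC : ∀ᶠ p in (U : Filter (S × X)), p.2 ∈ C := by
      filter_upwards [hU 1 ∅ one_pos] with p hp using hp.1
    have hUw : ∀ᶠ p in (U : Filter (S × X)), Z.w p.1 = r := by
      filter_upwards [hU 1 ∅ one_pos] with p hp using hp.2.2.1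
    have hUR : ∀ δ, 0 < δ → ∀ᶠ p in (U : Filter (S × X)), Z.R δ s p.1 := fun δ hδ => by
      filter_upwards [hU δ ∅ hδ] with p hp using hp.2.1
    obtain ⟨α, hα⟩ := exists_wlim hX U Prod.snd 1 (hUC.mono fun p hp => hC.2.2.1 _ hp)
    have hαC : α ∈ C := hα.mem hC.2.1 hC.1 hUC
    have h0 : WLim (U : Filter (S × X)) (fun p => Z.D s p.1 - p.2) 0 := by
      intro ψ
      rw [Metric.tendsto_nhds]
      intro ε hε
      filter_upwards [hU (ε / 2) {ψ} (half_pos hε)] with p hp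
      rw [map_zero, Real.dist_eq, sub_zero]
      exact (hp.2.2.2.1 ψ (Finset.mem_singleton_self _)).trans_lt (half_lt_self hε)
    have hD : WLim (U : Filter (S × X)) (fun p => Z.D s p.1) α := by
      simpa using h0.add hα
    refine ⟨α, ⟨hαC, ?_⟩, Z.mem_Cl_of_wlim (f := Prod.fst) hUR hUw hD⟩
    by_contra hβ
    have hβ' : β < ψ₀ α := not_le.1 hβ
    have hp : 0 < Z.w s - r := sub_pos.2 hrs
    have hPD : ∀ t, Z.w t = r → Z.P t = Z.P s + (Z.w s - r) • Z.D s t := by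
      intro t ht
      rw [D, ht, smul_smul, mul_inv_cancel₀ hp.ne', one_smul, add_sub_cancel]
    have ha : Z.P s + (Z.w s - r) • α ∈ Z.K := by
      refine ((wlim_const (Z.P s)).add (hD.smul (Z.w s - r))).mem Z.K_convex Z.K_closed ?_
      filter_upwards [hUw] with p hp
      rw [← hPD _ hp]
      exact Z.P_mem _
    obtain ⟨δ, hδ, hsep⟩ := Z.sep s _ ha ((Z.w s - r) / 4) (by positivity)
    obtain ⟨p, ⟨h1, h2, h3, -, h4⟩, h5⟩ :=
      ((show ∀ᶠ p in (U : Filter (S × X)), _ from hU δ ∅ hδ).and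
        ((hα ψ₀).eventually (lt_mem_nhds hβ'))).exists
    have h6 := hsep p.1 h2
    rw [hPD _ h3, add_sub_add_left_eq_sub, ← smul_sub, norm_smul, Real.norm_eq_abs,
      abs_of_pos hp, h3] at h6
    have h7 : ‖Z.D s p.1 - α‖ ≤ 1 / 2 := by
      have e : Z.D s p.1 - α = (Z.D s p.1 - p.2) + ((p.2 - x₀) - (α - x₀)) := by abel
      rw [e]
      have := norm_add_le (Z.D s p.1 - p.2) ((p.2 - x₀) - (α - x₀))
      have := norm_sub_le (p.2 - x₀) (α - x₀)
      linarith [hsl _ h1 h5, hsl _ hαC hβ']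
    nlinarith
  have := hmin hC₁ inter_subset_left hc₀
  exact absurd this.2 (not_le.2 hc₀β)

end Sys

end Crest.Agent.R108
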