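import Crest.Agent.R108.Core

/-!
# Minimal invariant sets, the Goebel–Karlovitz lemma, resolvents and the separable case
-/

set_option autoImplicit false

open Filter Topology Set

namespace Crest.Agent.R108

variable {X : Type*} [NormedAddCommGroup X] [NormedSpace ℝ X]

/-- Nonempty closed convex `T`-invariant subsets of `C`. -/
def Inv (C : Set X) (T : X → X) : Set (Set X) :=
  {K | K ⊆ C ∧ K.Nonempty ∧ IsClosed K ∧ Convex ℝ K ∧ MapsTo T K K}

theorem exists_minimal_inv (hX : Refl X) {C : Set X} {T : X → X} (hC : C ∈ Inv C T) {M : ℝ}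
    (hM : ∀ x ∈ C, ‖x‖ ≤ M) : ∃ K, Minimal (· ∈ Inv C T) K := by
  suffices H : ∀ c ⊆ Inv C T, IsChain (· ⊆ ·) c → c.Nonempty →
      ∃ lb ∈ Inv C T, ∀ s ∈ c, lb ⊆ s by
    obtain ⟨m, -, hm⟩ := zorn_superset_nonempty (Inv C T) H _ hC
    exact ⟨m, hm⟩
  intro c hc hchain hne
  have : Nonempty c := hne.to_subtype
  obtain ⟨K₀, hK₀⟩ := hne
  refine ⟨⋂₀ c, ⟨(sInter_subset_of_mem hK₀).trans (hc hK₀).1, ?_,
    isClosed_sInter fun K hK => (hc hK).2.2.1, convex_sInter fun K hK => (hc hK).2.2.2.1,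
    fun x hx K hK => (hc hK).2.2.2.2 (hx K hK)⟩, fun K hK => sInter_subset_of_mem hK⟩
  obtain ⟨U, hU⟩ := exists_ultrafilter_of_directed (fun K : c => K.1)
    (fun a b => by
      rcases hchain.total a.2 b.2 with h | h
      · exact ⟨a, fun x hx => hx, h⟩
      · exact ⟨b, h, fun x hx => hx⟩)
    (fun K => (hc K.2).2.1)
  obtain ⟨α, hα⟩ := exists_wlim hX U id M (by
    filter_upwards [hU ⟨K₀, hK₀⟩] with x hx using hM x ((hc hK₀).1 hx))
  exact ⟨α, fun K hK => hα.mem (hc hK).2.2.2.1 (hc hK).2.2.1 (hU ⟨K, hK⟩)⟩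

/-- The Goebel–Karlovitz lemma. -/
theorem goebel_karlovitz (hX : Refl X) {K : Set X} {T : X → X} (hcl : IsClosed K)
    (hconv : Convex ℝ K) (hT : MapsTo T K K) {M : ℝ} (hM : ∀ x ∈ K, ‖x‖ ≤ M)
    (hT₂ : ∀ a ∈ K, ∀ b ∈ K, ‖T a - T b‖ ≤ ‖a - b‖)
    (hmin : ∀ K' ⊆ K, K'.Nonempty → IsClosed K' → Convex ℝ K' → MapsTo T K' K' → K ⊆ K')
    {y : X} (hy : y ∈ K) {c : ℝ} (h : ∀ δ, 0 < δ → ∃ x ∈ K, ‖x - T x‖ ≤ δ ∧ ‖x - y‖ ≤ c) :
    ∀ a ∈ K, ∀ b ∈ K, ‖a - b‖ ≤ c := by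
  obtain ⟨U, hU⟩ := exists_ultrafilter_of_mono
    (fun δ => {x | x ∈ K ∧ ‖x - T x‖ ≤ δ ∧ ‖x - y‖ ≤ c})
    (fun δ δ' _ hδ x hx => ⟨hx.1, hx.2.1.trans hδ, hx.2.2⟩) h
  have hUK : ∀ᶠ x in (U : Filter X), x ∈ K := by
    filter_upwards [hU 1 one_pos] with x hx using hx.1
  have hA : K ⊆ {z | z ∈ K ∧ ∀ ε, 0 < ε → ∀ᶠ x in (U : Filter X), ‖x - z‖ ≤ c + ε} := by
    refine hmin _ (fun z hz => hz.1) ⟨y, hy, fun ε hε => ?_⟩ ?_ ?_ ?_
    · filter_upwards [hU 1 one_pos] with x hx using hx.2.2.trans (by linarith)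
    · refine isClosed_of_closure_subset fun z hz => ⟨?_, fun ε hε => ?_⟩
      · exact hcl.closure_subset_iff.2 (fun z hz => hz.1) hz
      · obtain ⟨z', hz', hd⟩ := Metric.mem_closure_iff.1 hz (ε / 2) (half_pos hε)
        filter_upwards [hz'.2 (ε / 2) (half_pos hε)] with x hx
        rw [dist_comm, dist_eq_norm] at hd
        have := norm_sub_le_norm_sub_add_norm_sub x z' z
        linarith
    · intro z hz z' hz' s t hs ht hst
      refine ⟨hconv hz.1 hz'.1 hs ht hst, fun ε hε => ?_⟩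
      filter_upwards [hz.2 ε hε, hz'.2 ε hε] with x h1 h2
      have := convex_closedBall x (c + ε) (mem_closedBall_iff_norm'.2 h1)
        (mem_closedBall_iff_norm'.2 h2) hs ht hst
      exact mem_closedBall_iff_norm'.1 this
    · intro z hz
      refine ⟨hT hz.1, fun ε hε => ?_⟩
      filter_upwards [hz.2 (ε / 2) (half_pos hε), hU (ε / 2) (half_pos hε)] with x h1 h2
      have := norm_sub_le_norm_sub_add_norm_sub x (T x) (T z)
      linarith [hT₂ x h2.1 z hz.1, h2.2.1]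
  obtain ⟨z, hz⟩ := exists_wlim hX U id M (hUK.mono fun x hx => hM x hx)
  have hzK : z ∈ K := hz.mem hconv hcl hUK
  have hzc : ∀ b ∈ K, ‖z - b‖ ≤ c := fun b hb =>
    le_of_forall_pos_le_add fun ε hε => hz.norm_sub_le ((hA hb).2 ε hε)
  have hB : K ⊆ {z | z ∈ K ∧ ∀ b ∈ K, ‖z - b‖ ≤ c} := by
    refine hmin _ (fun z hz => hz.1) ⟨z, hzK, hzc⟩ ?_ ?_ ?_
    · have : {z | z ∈ K ∧ ∀ b ∈ K, ‖z - b‖ ≤ c} = K ∩ ⋂ b ∈ K, Metric.closedBall b c := by
        ext z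
        simp [dist_eq_norm]
      rw [this]
      exact hcl.inter (isClosed_biInter fun b _ => Metric.isClosed_closedBall)
    · intro z hz z' hz' s t hs ht hst
      refine ⟨hconv hz.1 hz'.1 hs ht hst, fun b hb => ?_⟩
      exact mem_closedBall_iff_norm.1 (convex_closedBall b c
        (mem_closedBall_iff_norm.2 (hz.2 b hb)) (mem_closedBall_iff_norm.2 (hz'.2 b hb)) hs ht hst)
    · intro z hz
      refine ⟨hT hz.1, fun b hb => ?_⟩
      have hsub : closure (convexHull ℝ (T '' K)) ⊆ K :=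
        hcl.closure_subset_iff.2 (convexHull_min hT.image_subset hconv)
      have hK' : K ⊆ closure (convexHull ℝ (T '' K)) := by
        refine hmin _ hsub ⟨T y, subset_closure (subset_convexHull ℝ _ ⟨y, hy, rfl⟩)⟩
          isClosed_closure (convex_convexHull ℝ _).closure fun u hu => ?_
        exact subset_closure (subset_convexHull ℝ _ ⟨u, hsub hu, rfl⟩)
      have hball : closure (convexHull ℝ (T '' K)) ⊆ Metric.closedBall (T z) c := by
        refine Metric.isClosed_closedBall.closure_subset_iff.2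
          (convexHull_min ?_ (convex_closedBall _ _))
        rintro _ ⟨u, hu, rfl⟩
        exact mem_closedBall_iff_norm'.2 ((hT₂ z hz.1 u hu).trans (hz.2 u hu))
      exact mem_closedBall_iff_norm'.1 (hball (hK' hb))
  exact fun a ha b hb => (hB ha).2 b hb

/-- The resolvent of a nonexpansive map. -/
theorem exists_resolvent [CompleteSpace X] {K : Set X} {T : X → X} (hcl : IsClosed K)
    (hconv : Convex ℝ K) (hT : MapsTo T K K) (hT₂ : ∀ a ∈ K, ∀ b ∈ K, ‖T a - T b‖ ≤ ‖a - b‖)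
    {t : ℝ} (ht0 : 0 < t) (ht1 : t ≤ 1) :
    ∃ J : X → X, ∀ w ∈ K, J w ∈ K ∧ J w = t • w + (1 - t) • T (J w) := by
  have H : ∀ w ∈ K, ∃ z ∈ K, z = t • w + (1 - t) • T z := by
    intro w hw
    have hmaps : MapsTo (fun z => t • w + (1 - t) • T z) K K := fun z hz =>
      hconv hw (hT hz) ht0.le (sub_nonneg.2 ht1) (by ring)
    have hcoe : ((1 - t).toNNReal : ℝ) = 1 - t := Real.coe_toNNReal _ (sub_nonneg.2 ht1)
    have hcontr : ContractingWith (1 - t).toNNReal (hmaps.restrict _ K K) := by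
      refine ⟨by rw [← NNReal.coe_lt_coe, hcoe]; simpa using ht0, LipschitzWith.of_dist_le_mul ?_⟩
      intro a b
      rw [Subtype.dist_eq, Subtype.dist_eq, dist_eq_norm, dist_eq_norm, hcoe]
      simp only [MapsTo.val_restrict_apply]
      rw [add_sub_add_left_eq_sub, ← smul_sub, norm_smul, Real.norm_eq_abs,
        abs_of_nonneg (sub_nonneg.2 ht1)]
      exact mul_le_mul_of_nonneg_left (hT₂ a a.2 b b.2) (sub_nonneg.2 ht1)
    obtain ⟨z, hz, hfix, -⟩ := hcontr.exists_fixedPoint' hcl.isComplete hmaps hw (edist_ne_top _ _)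
    exact ⟨z, hz, hfix.eq.symm⟩
  choose! J hJ using H
  exact ⟨J, hJ⟩

/-- The class `𝒢(ρ)` of `ρ`-Lipschitz self-maps of `K` that move approximate fixed points of `T`
by at most `(1 - ρ) d`. -/
structure InG (K : Set X) (T : X → X) (d ρ : ℝ) (g : X → X) : Prop where
  nonneg : 0 ≤ ρ
  maps : MapsTo g K K
  lip : ∀ a ∈ K, ∀ b ∈ K, ‖g a - g b‖ ≤ ρ * ‖a - b‖
  near : ∀ ε, 0 < ε → ∃ δ, 0 < δ ∧ ∀ x ∈ K, ‖x - T x‖ ≤ δ → ‖g x - x‖ ≤ (1 - ρ) * d + ε

omit [NormedSpace ℝ X] in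
theorem InG.id (K : Set X) (T : X → X) (d : ℝ) : InG K T d 1 id :=
  ⟨zero_le_one, mapsTo_id _, fun a _ b _ => by simp,
    fun ε hε => ⟨1, one_pos, fun x _ _ => by simpa using hε.le⟩⟩

omit [NormedSpace ℝ X] in
theorem InG.comp {K : Set X} {T : X → X} {d π ρ : ℝ} {f g : X → X} (hf : InG K T d π f)
    (hg : InG K T d ρ g) : InG K T d (π * ρ) (f ∘ g) := by
  refine ⟨mul_nonneg hf.nonneg hg.nonneg, hf.maps.comp hg.maps, fun a ha b hb => ?_,
    fun ε hε => ?_⟩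
  · refine (hf.lip _ (hg.maps ha) _ (hg.maps hb)).trans ?_
    rw [mul_assoc]
    exact mul_le_mul_of_nonneg_left (hg.lip a ha b hb) hf.nonneg
  · have hπ := hf.nonneg
    obtain ⟨δ₁, hδ₁, h₁⟩ := hf.near (ε / 2) (half_pos hε)
    obtain ⟨δ₂, hδ₂, h₂⟩ := hg.near (ε / 2 / (π + 1)) (by positivity)
    refine ⟨min δ₁ δ₂, lt_min hδ₁ hδ₂, fun x hx hxT => ?_⟩
    have h3 := h₁ x hx (hxT.trans (min_le_left _ _))
    have h4 := h₂ x hx (hxT.trans (min_le_right _ _))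
    have h5 := (hf.lip _ (hg.maps hx) _ hx).trans (mul_le_mul_of_nonneg_left h4 hπ)
    have h6 := norm_sub_le_norm_sub_add_norm_sub (f (g x)) (f x) x
    have h7 : π * (ε / 2 / (π + 1)) ≤ ε / 2 := by
      rw [← mul_div_assoc, div_le_iff₀ (by positivity)]
      nlinarith
    simp only [Function.comp_apply]
    nlinarith

theorem exists_inG [CompleteSpace X] {K : Set X} {T : X → X} (hne : K.Nonempty) (hcl : IsClosed K)
    (hconv : Convex ℝ K) (hT : MapsTo T K K) (hT₂ : ∀ a ∈ K, ∀ b ∈ K, ‖T a - T b‖ ≤ ‖a - b‖)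
    {d : ℝ} (hd : ∀ a ∈ K, ∀ b ∈ K, ‖a - b‖ ≤ d) {ρ : ℝ} (hρ0 : 0 ≤ ρ) (hρ1 : ρ ≤ 1) {δ : ℝ}
    (hδ : 0 < δ) : ∃ g, InG K T d ρ g ∧ ∀ x ∈ K, ‖g x - T (g x)‖ ≤ δ := by
  obtain ⟨p, hp⟩ := hne
  have hd0 : 0 ≤ d := (norm_nonneg _).trans (hd p hp p hp)
  set t := min 1 (δ / (d + 1)) with htdef
  have ht0 : 0 < t := lt_min one_pos (by positivity)
  have ht1 : t ≤ 1 := min_le_left _ _
  have htd : t * d ≤ δ := by
    have h1 : t ≤ δ / (d + 1) := min_le_right _ _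
    rw [le_div_iff₀ (by positivity)] at h1
    nlinarith
  obtain ⟨J, hJ⟩ := exists_resolvent hcl hconv hT hT₂ ht0 ht1
  have hJlip : ∀ a ∈ K, ∀ b ∈ K, ‖J a - J b‖ ≤ ‖a - b‖ := by
    intro a ha b hb
    have e : J a - J b = t • (a - b) + (1 - t) • (T (J a) - T (J b)) := by
      conv_lhs => rw [(hJ a ha).2, (hJ b hb).2]
      module
    have h1 := norm_add_le (t • (a - b)) ((1 - t) • (T (J a) - T (J b)))
    rw [← e, norm_smul, norm_smul, Real.norm_eq_abs, Real.norm_eq_abs, abs_of_pos ht0,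
      abs_of_nonneg (sub_nonneg.2 ht1)] at h1
    have h2 := mul_le_mul_of_nonneg_left (hT₂ _ (hJ a ha).1 _ (hJ b hb).1) (sub_nonneg.2 ht1)
    exact le_of_mul_le_mul_left (by linarith) ht0
  have hJapp : ∀ a ∈ K, ‖J a - T (J a)‖ ≤ δ := by
    intro a ha
    have e : J a - T (J a) = t • (a - T (J a)) := by
      nth_rewrite 1 [(hJ a ha).2]
      module
    rw [e, norm_smul, Real.norm_eq_abs, abs_of_pos ht0]
    exact (mul_le_mul_of_nonneg_left (hd _ ha _ (hT (hJ a ha).1)) ht0.le).trans htd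
  have hJnear : ∀ a ∈ K, t * ‖J a - a‖ ≤ ‖a - T a‖ := by
    intro a ha
    have e : J a - a = (1 - t) • (T (J a) - a) := by
      nth_rewrite 1 [(hJ a ha).2]
      module
    have h1 : ‖J a - a‖ = (1 - t) * ‖T (J a) - a‖ := by
      rw [e, norm_smul, Real.norm_eq_abs, abs_of_nonneg (sub_nonneg.2 ht1)]
    have h2 := norm_sub_le_norm_sub_add_norm_sub (T (J a)) (T a) a
    have h3 := hT₂ _ (hJ a ha).1 _ ha
    rw [norm_sub_rev (T a) a] at h2
    have h4 := mul_le_mul_of_nonneg_left (h2.trans (add_le_add_left h3 _)) (sub_nonneg.2 ht1)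
    nlinarith [norm_nonneg (a - T a)]
  have hmem : ∀ x ∈ K, ρ • x + (1 - ρ) • p ∈ K := fun x hx =>
    hconv hx hp hρ0 (sub_nonneg.2 hρ1) (by ring)
  refine ⟨fun x => J (ρ • x + (1 - ρ) • p), ⟨hρ0, fun x hx => (hJ _ (hmem x hx)).1,
    fun a ha b hb => ?_, fun ε hε => ⟨t * ε, by positivity, fun x hx hxT => ?_⟩⟩,
    fun x hx => hJapp _ (hmem x hx)⟩
  · refine (hJlip _ (hmem a ha) _ (hmem b hb)).trans (le_of_eq ?_)
    rw [add_sub_add_right_eq_sub, ← smul_sub, norm_smul, Real.norm_eq_abs, abs_of_nonneg hρ0]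
  · have h1 := norm_sub_le_norm_sub_add_norm_sub (J (ρ • x + (1 - ρ) • p)) (J x) x
    have h2 := hJlip _ (hmem x hx) _ hx
    have e : ρ • x + (1 - ρ) • p - x = (1 - ρ) • (p - x) := by module
    rw [e, norm_smul, Real.norm_eq_abs, abs_of_nonneg (sub_nonneg.2 hρ1)] at h2
    have h3 := mul_le_mul_of_nonneg_left (hd p hp x hx) (sub_nonneg.2 hρ1)
    have h4 : ‖J x - x‖ ≤ ε := le_of_mul_le_mul_left ((hJnear x hx).trans hxT) ht0
    linarith

/-- The fixed point theorem in a separable reflexive space with separable dual. -/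
theorem exists_fixed_of_separable [CompleteSpace X] [TopologicalSpace.SeparableSpace X]
    [TopologicalSpace.SeparableSpace (StrongDual ℝ X)] (hX : Refl X) {C : Set X}
    (hC₁ : C.Nonempty) (hC₂ : IsClosed C) (hC₃ : Bornology.IsBounded C) (hC₄ : Convex ℝ C)
    {T : X → X} (hT₁ : MapsTo T C C) (hT₂ : ∀ a ∈ C, ∀ b ∈ C, ‖T a - T b‖ ≤ ‖a - b‖) :
    ∃ x ∈ C, T x = x := by
  obtain ⟨M, hM⟩ := hC₃.exists_norm_le
  obtain ⟨K, ⟨hKC, hne, hcl, hconv, hT⟩, hmin⟩ :=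
    exists_minimal_inv hX (C := C) (T := T) ⟨subset_rfl, hC₁, hC₂, hC₄, hT₁⟩ hM
  have hmin' : ∀ K' ⊆ K, K'.Nonempty → IsClosed K' → Convex ℝ K' → MapsTo T K' K' → K ⊆ K' :=
    fun K' h1 h2 h3 h4 h5 => hmin ⟨h1.trans hKC, h2, h3, h4, h5⟩ h1
  have hM' : ∀ x ∈ K, ‖x‖ ≤ M := fun x hx => hM x (hKC hx)
  have hT₂' : ∀ a ∈ K, ∀ b ∈ K, ‖T a - T b‖ ≤ ‖a - b‖ :=
    fun a ha b hb => hT₂ a (hKC ha) b (hKC hb)
  set d := Metric.diam K with hddef
  have hd : ∀ a ∈ K, ∀ b ∈ K, ‖a - b‖ ≤ d := fun a ha b hb => by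
    rw [← dist_eq_norm]
    exact Metric.dist_le_diam_of_mem (hC₃.subset hKC) ha hb
  have hd0 : 0 ≤ d := Metric.diam_nonneg
  have hGK : ∀ y ∈ K, ∀ ε, 0 < ε → ∃ δ, 0 < δ ∧ ∀ x ∈ K, ‖x - T x‖ ≤ δ → d - ε ≤ ‖x - y‖ := by
    intro y hy ε hε
    by_contra hcon
    push Not at hcon
    have h := goebel_karlovitz hX hcl hconv hT hM' hT₂' hmin' hy (c := d - ε) fun δ hδ => by
      obtain ⟨x, hx, h1, h2⟩ := hcon δ hδ
      exact ⟨x, hx, h1, h2.le⟩
    have : d ≤ d - ε := Metric.diam_le_of_forall_dist_le ((norm_nonneg _).trans (h y hy y hy))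
      fun a ha b hb => by rw [dist_eq_norm]; exact h a ha b hb
    linarith
  obtain ⟨U, hU⟩ := exists_ultrafilter_of_mono (fun δ => {x | x ∈ K ∧ ‖x - T x‖ ≤ δ})
    (fun δ δ' _ hδ x hx => ⟨hx.1, hx.2.trans hδ⟩) (fun δ hδ => by
      obtain ⟨g, hg, hg'⟩ := exists_inG hne hcl hconv hT hT₂' hd zero_le_one le_rfl hδ
      obtain ⟨p, hp⟩ := hne
      exact ⟨g p, hg.maps hp, hg' p hp⟩)
  have hUK : ∀ᶠ x in (U : Filter X), x ∈ K := by
    filter_upwards [hU 1 one_pos] with x hx using hx.1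
  let S := {p : (X → X) × ℝ // InG K T d p.2 p.1}
  have hP : ∀ s : S, ∃ z, WLim (U : Filter X) s.1.1 z := fun s =>
    exists_wlim hX U _ M (hUK.mono fun x hx => hM' _ (s.2.maps hx))
  choose P hP using hP
  let Z : Sys X S :=
    { w := fun s => s.1.2 * d
      P := P
      K := K
      R := fun δ s t => ∃ g ρ, InG K T d ρ g ∧ (∀ x ∈ K, ‖g x - T (g x)‖ ≤ δ) ∧
        t.1.1 = s.1.1 ∘ g ∧ t.1.2 = s.1.2 * ρ
      K_convex := hconv
      K_closed := hcl
      P_mem := fun s => (hP s).mem hconv hcl (hUK.mono fun x hx => s.2.maps hx)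
      mono := by
        rintro δ δ' s t hδ ⟨g, ρ, h1, h2, h3, h4⟩
        exact ⟨g, ρ, h1, fun x hx => (h2 x hx).trans hδ, h3, h4⟩
      trans := by
        rintro δ s t u ⟨g, ρ, h1, h2, h3, h4⟩ ⟨g', ρ', h1', -, h3', h4'⟩
        refine ⟨g ∘ g', ρ * ρ', h1.comp h1', fun x hx => h2 _ (h1'.maps hx), ?_, ?_⟩
        · rw [h3', h3, Function.comp_assoc]
        · rw [h4', h4, mul_assoc]
      ex := by
        intro δ s r hδ hr hrs
        have hw : 0 < s.1.2 * d := hr.trans hrs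
        obtain ⟨g, hg, hg'⟩ := exists_inG hne hcl hconv hT hT₂' hd (ρ := r / (s.1.2 * d))
          (by positivity) ((div_le_one hw).2 hrs.le) hδ
        refine ⟨⟨(s.1.1 ∘ g, s.1.2 * (r / (s.1.2 * d))), s.2.comp hg⟩,
          ⟨g, _, hg, hg', rfl, rfl⟩, ?_⟩
        show s.1.2 * (r / (s.1.2 * d)) * d = r
        rw [mul_right_comm, mul_div_cancel₀ _ hw.ne']
      lip := by
        rintro δ s t ⟨g, ρ, h1, -, h3, h4⟩
        refine le_of_forall_pos_le_add fun ε hε => ?_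
        have hπ := s.2.nonneg
        obtain ⟨δ', hδ', h5⟩ := h1.near (ε / (s.1.2 + 1)) (by positivity)
        have h6 := ((hP t).sub (hP s)).norm_sub_le (y := 0)
          (r := s.1.2 * ((1 - ρ) * d + ε / (s.1.2 + 1))) (by
            filter_upwards [hU δ' hδ'] with x hx
            rw [sub_zero, h3]
            exact (s.2.lip _ (h1.maps hx.1) _ hx.1).trans
              (mul_le_mul_of_nonneg_left (h5 x hx.1 hx.2) hπ))
        have h7 : s.1.2 * (ε / (s.1.2 + 1)) ≤ ε := by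
          rw [← mul_div_assoc, div_le_iff₀ (by positivity)]
          nlinarith
        rw [sub_zero] at h6
        rw [h4]
        nlinarith
      sep := by
        intro s a ha ε hε
        obtain ⟨δ₁, hδ₁, h₁⟩ := hGK a ha (ε / 2) (half_pos hε)
        obtain ⟨δ₂, hδ₂, h₂⟩ := s.2.near (ε / 2) (half_pos hε)
        refine ⟨min δ₁ δ₂, lt_min hδ₁ hδ₂, ?_⟩
        rintro t ⟨g, ρ, h1, h2, h3, h4⟩
        obtain ⟨p, hp⟩ := hne
        have h5 := h₁ _ (h1.maps hp) ((h2 p hp).trans (min_le_left _ _))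
        have h6 := h₂ _ (h1.maps hp) ((h2 p hp).trans (min_le_right _ _))
        have h7 : ‖P t - t.1.1 p‖ ≤ t.1.2 * d := (hP t).norm_sub_le (by
          filter_upwards [hUK] with x hx
          exact (t.2.lip x hx p hp).trans (mul_le_mul_of_nonneg_left (hd x hx p hp) t.2.nonneg))
        rw [h3, Function.comp_apply] at h7
        have h8 := norm_sub_le_norm_sub_add_norm_sub (g p) (s.1.1 (g p)) a
        have h9 := norm_sub_le_norm_sub_add_norm_sub (s.1.1 (g p)) (P t) a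
        rw [norm_sub_rev] at h6 h7
        linarith }
  have hw := Z.weight_nonpos hX ⟨(id, 1), InG.id K T d⟩
  have hd' : d ≤ 0 := by simpa [Z] using hw
  obtain ⟨p, hp⟩ := hne
  exact ⟨p, hKC hp, sub_eq_zero.1 (norm_le_zero_iff.1 ((hd _ (hT hp) _ hp).trans hd'))⟩

end Crest.Agent.R108
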