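import Crest.Agent.R108.Minimal

/-!
# Reduction to the separable case
-/

set_option autoImplicit false

open Filter Topology Set TopologicalSpace

namespace Crest.Agent.R108

variable {X : Type*} [NormedAddCommGroup X] [NormedSpace ℝ X]

theorem exists_dual_vanish (Y : Submodule ℝ X) (hY : IsClosed (Y : Set X)) {x : X} (hx : x ∉ Y) :
    ∃ φ : StrongDual ℝ X, (∀ y ∈ Y, φ y = 0) ∧ φ x ≠ 0 := by
  obtain ⟨φ, u, h1, h2⟩ := geometric_hahn_banach_closed_point Y.convex hY hx
  have hu : 0 < u := by simpa using h1 0 Y.zero_mem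
  refine ⟨φ, fun y hy => ?_, (hu.trans h2).ne'⟩
  by_contra hne
  have := h1 ((u / φ y) • y) (Y.smul_mem _ hy)
  rw [map_smul, smul_eq_mul, div_mul_cancel₀ _ hne] at this
  exact lt_irrefl _ this

theorem Refl.submodule (hX : Refl X) (Y : Submodule ℝ X) (hY : IsClosed (Y : Set X)) :
    Refl Y := by
  intro F
  let res : StrongDual ℝ X →L[ℝ] StrongDual ℝ Y :=
    (ContinuousLinearMap.compL ℝ Y X ℝ).flip Y.subtypeL
  have hres : ∀ (φ : StrongDual ℝ X) (y : Y), res φ y = φ y := fun φ y => rfl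
  obtain ⟨x, hx⟩ := hX (F.comp res)
  have hx' : ∀ φ : StrongDual ℝ X, φ x = F (res φ) := fun φ => by
    have := congrArg (fun G : StrongDual ℝ (StrongDual ℝ X) => G φ) hx
    exact this
  have hxY : x ∈ Y := by
    by_contra hxY
    obtain ⟨φ, h1, h2⟩ := exists_dual_vanish Y hY hxY
    have : res φ = 0 := by
      ext y
      exact h1 y y.2
    rw [hx', this, map_zero] at h2
    exact h2 rfl
  refine ⟨⟨x, hxY⟩, ?_⟩
  ext ψ
  obtain ⟨φ, hφ, -⟩ := exists_extension_norm_eq Y ψ
  have : res φ = ψ := by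
    ext y
    exact hφ y
  rw [NormedSpace.dual_def, ← this, ← hx', hres]

theorem Refl.separable_dual (hX : Refl X) [SeparableSpace X] :
    SeparableSpace (StrongDual ℝ X) := by
  have : Nonempty X := ⟨0⟩
  set x := denseSeq X with hxdef
  have hx : DenseRange x := denseRange_denseSeq X
  choose φ hφ1 hφ2 using fun n => exists_dual_vector'' ℝ (x n)
  let W : Submodule ℝ (StrongDual ℝ X) := (Submodule.span ℝ (range φ)).topologicalClosure
  have hW : IsSeparable (W : Set (StrongDual ℝ X)) :=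
    (countable_range φ).isSeparable.span.closure
  rw [← isSeparable_univ_iff]
  refine hW.mono fun ψ _ => ?_
  by_contra hψ
  obtain ⟨F, h1, h2⟩ := exists_dual_vanish W (Submodule.isClosed_topologicalClosure _) hψ
  obtain ⟨y, rfl⟩ := hX F
  have hy : ∀ n, φ n y = 0 := fun n =>
    h1 (φ n) (Submodule.le_topologicalClosure _ (Submodule.subset_span ⟨n, rfl⟩))
  have hy0 : ‖y‖ ≤ 0 := by
    refine le_of_forall_pos_le_add fun ε hε => ?_
    obtain ⟨n, hn⟩ := hx.exists_dist_lt y (half_pos hε)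
    rw [dist_eq_norm] at hn
    have h3 := dual_le_norm (hφ1 n) (x n - y)
    rw [map_sub, hy n, hφ2 n, norm_sub_rev] at h3
    have h4 := norm_le_norm_add_norm_sub' y (x n)
    simp only [RCLike.ofReal_real_eq_id, id_eq] at h3
    linarith
  rw [norm_le_zero_iff.1 hy0] at h2
  simp at h2

theorem exists_separable_inv {C : Set X} (hC₁ : C.Nonempty) (hC₂ : IsClosed C) (hC₄ : Convex ℝ C)
    {T : X → X} (hT₁ : MapsTo T C C) (hT₂ : ContinuousOn T C) :
    ∃ C' ⊆ C, C'.Nonempty ∧ IsClosed C' ∧ Convex ℝ C' ∧ MapsTo T C' C' ∧ IsSeparable C' := by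
  obtain ⟨p, hp⟩ := hC₁
  let S : ℕ → Set X := fun n => Nat.rec {p} (fun _ A => convexHull ℝ (A ∪ T '' A)) n
  have hS0 : S 0 = {p} := rfl
  have hSs : ∀ n, S (n + 1) = convexHull ℝ (S n ∪ T '' S n) := fun n => rfl
  have hSC : ∀ n, S n ⊆ C := by
    intro n
    induction n with
    | zero => exact singleton_subset_iff.2 hp
    | succ n ih =>
      exact convexHull_min (union_subset ih ((image_mono ih).trans hT₁.image_subset)) hC₄
  have hSsep : ∀ n, IsSeparable (S n) := by
    intro n
    induction n with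
    | zero => exact (countable_singleton p).isSeparable
    | succ n ih =>
      have h1 : IsSeparable (S n ∪ T '' S n) :=
        ih.union ((hT₂.mono (hSC n)).isSeparable_image ih)
      exact (h1.span (R := ℝ)).mono (convexHull_min Submodule.subset_span (Submodule.convex _))
  have hSconv : ∀ n, Convex ℝ (S n) := by
    intro n
    cases n with
    | zero => exact convex_singleton p
    | succ n => exact convex_convexHull ℝ _
  have hmono : Monotone S := monotone_nat_of_le_succ fun n =>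
    subset_union_left.trans (subset_convexHull ℝ _)
  have hUC : ⋃ n, S n ⊆ C := iUnion_subset hSC
  have hcl : closure (⋃ n, S n) ⊆ C := hC₂.closure_subset_iff.2 hUC
  refine ⟨closure (⋃ n, S n), hcl, ⟨p, subset_closure (mem_iUnion.2 ⟨0, rfl⟩)⟩, isClosed_closure,
    (hmono.directed_le.convex_iUnion hSconv).closure, ?_, (IsSeparable.iUnion hSsep).closure⟩
  refine MapsTo.closure_of_continuousOn (fun x hx => ?_) (hT₂.mono hcl)
  obtain ⟨n, hn⟩ := mem_iUnion.1 hx
  exact mem_iUnion.2 ⟨n + 1, subset_convexHull ℝ _ (Or.inr ⟨x, hn, rfl⟩)⟩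

theorem exists_fixed [CompleteSpace X] (hX : Refl X) {C : Set X}
    (hC₁ : C.Nonempty) (hC₂ : IsClosed C) (hC₃ : Bornology.IsBounded C) (hC₄ : Convex ℝ C)
    {T : X → X} (hT₁ : MapsTo T C C) (hT₂ : ∀ a ∈ C, ∀ b ∈ C, ‖T a - T b‖ ≤ ‖a - b‖) :
    ∃ x ∈ C, T x = x := by
  classical
  have hcont : ContinuousOn T C := by
    refine (LipschitzOnWith.of_dist_le_mul (K := 1) fun a ha b hb => ?_).continuousOn
    simpa [dist_eq_norm] using hT₂ a ha b hb
  obtain ⟨C', hC'C, h1, h2, h3, h4, h5⟩ := exists_separable_inv hC₁ hC₂ hC₄ hT₁ hcont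
  let Y : Submodule ℝ X := (Submodule.span ℝ C').topologicalClosure
  have hYc : IsClosed (Y : Set X) := Submodule.isClosed_topologicalClosure _
  have hC'Y : C' ⊆ Y := fun x hx => Submodule.le_topologicalClosure _ (Submodule.subset_span hx)
  have : CompleteSpace Y := hYc.completeSpace_coe
  have : SeparableSpace Y := (h5.span (R := ℝ)).closure.separableSpace
  have hY : Refl Y := hX.submodule Y hYc
  have := hY.separable_dual
  let T' : Y → Y := fun y => if h : (y : X) ∈ C' then ⟨T y, hC'Y (h4 h)⟩ else y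
  have hT' : ∀ y : Y, (y : X) ∈ C' → (T' y : X) = T y := fun y hy => by
    simp only [T', dif_pos hy]
  obtain ⟨y, hy, hfix⟩ := exists_fixed_of_separable hY (C := ((↑) : Y → X) ⁻¹' C') (T := T')
    (by obtain ⟨p, hp⟩ := h1; exact ⟨⟨p, hC'Y hp⟩, hp⟩)
    (h2.preimage continuous_subtype_val)
    (by
      obtain ⟨M, hM⟩ := hC₃.exists_norm_le
      exact isBounded_iff_forall_norm_le.2 ⟨M, fun y hy => hM y (hC'C hy)⟩)
    (h3.linear_preimage Y.subtype)
    (fun y hy => by
      rw [mem_preimage, hT' y hy]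
      exact h4 hy)
    (fun a ha b hb => by
      have := hT₂ a (hC'C ha) b (hC'C hb)
      rw [← hT' a ha, ← hT' b hb] at this
      exact this)
  exact ⟨y, hC'C hy, by rw [← hT' y hy, hfix]⟩

end Crest.Agent.R108
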