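import Crest.Agent.R108.Weak

/-!
# Small slices of closed bounded convex sets in separable reflexive spaces, and a Baire kernel lemma
-/

set_option autoImplicit false

open Filter Topology Set

namespace Crest.Agent.R108

variable {X : Type*} [NormedAddCommGroup X] [NormedSpace ℝ X]

theorem exists_small_slice [TopologicalSpace.SeparableSpace X] (hX : Refl X) {C : Set X}
    (hne : C.Nonempty) (hc : IsClosed C) (hconv : Convex ℝ C) {M : ℝ} (hM : ∀ x ∈ C, ‖x‖ ≤ M)
    {ε : ℝ} (hε : 0 < ε) :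
    ∃ (ψ : StrongDual ℝ X) (β : ℝ) (x₀ : X), (∃ c ∈ C, β < ψ c) ∧
      ∀ c ∈ C, β < ψ c → ‖c - x₀‖ ≤ ε := by
  have : Nonempty X := ⟨0⟩
  set x := TopologicalSpace.denseSeq X with hxdef
  have hx : DenseRange x := TopologicalSpace.denseRange_denseSeq X
  have hM0 : 0 ≤ M := by
    obtain ⟨c, hc⟩ := hne
    exact (norm_nonneg c).trans (hM c hc)
  let A : ℕ → Set (StrongDual ℝ X) :=
    fun k => {ψ | ∃ c ∈ C, (∀ c' ∈ C, ψ c' ≤ ψ c) ∧ ‖c - x k‖ ≤ ε / 2}
  have hU : ⋃ k, A k = univ := by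
    refine eq_univ_of_forall fun ψ => ?_
    obtain ⟨c, hcC, hcm⟩ := exists_max hX hne hc hconv hM ψ
    obtain ⟨k, hk⟩ := hx.exists_dist_lt c (half_pos hε)
    refine mem_iUnion.2 ⟨k, c, hcC, hcm, ?_⟩
    rw [← dist_eq_norm]
    exact hk.le
  have hcl : ∀ k, IsClosed (A k) := by
    intro k
    refine isClosed_of_closure_subset fun ψ hψ => ?_
    have hne' : (C ∩ Metric.closedBall (x k) (ε / 2)).Nonempty := by
      obtain ⟨ψ', ⟨c, hcC, -, hcx⟩⟩ := closure_nonempty_iff.1 ⟨ψ, hψ⟩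
      exact ⟨c, hcC, mem_closedBall_iff_norm.2 hcx⟩
    obtain ⟨c, hcC, hcm⟩ := exists_max hX hne' (hc.inter Metric.isClosed_closedBall)
      (hconv.inter (convex_closedBall _ _)) (fun y hy => hM y hy.1) ψ
    refine ⟨c, hcC.1, fun c' hc' => ?_, mem_closedBall_iff_norm.1 hcC.2⟩
    refine le_of_forall_pos_le_add fun δ hδ => ?_
    obtain ⟨ψ', ⟨c'', hc''C, hc''m, hc''x⟩, hψ'⟩ :=
      Metric.mem_closure_iff.1 hψ (δ / (2 * M + 1)) (by positivity)
    rw [dist_eq_norm] at hψ'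
    have hb : ∀ y ∈ C, |ψ y - ψ' y| ≤ δ / (2 * M + 1) * M := by
      intro y hy
      have h1 := (ψ - ψ').le_opNorm y
      rw [sub_apply, Real.norm_eq_abs] at h1
      exact h1.trans (mul_le_mul hψ'.le (hM y hy) (norm_nonneg _) (by positivity))
    have h1 := abs_le.1 (hb c' hc')
    have h2 := abs_le.1 (hb c'' hc''C)
    have h3 := hc''m c' hc'
    have h4 := hcm c'' ⟨hc''C, mem_closedBall_iff_norm.2 hc''x⟩
    have h5 : 2 * (δ / (2 * M + 1) * M) ≤ δ := by
      rw [div_mul_eq_mul_div, ← mul_div_assoc, div_le_iff₀ (by positivity)]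
      nlinarith
    linarith [h1.2, h2.1]
  obtain ⟨k, ψ₀, hψ₀⟩ := nonempty_interior_of_iUnion_of_closed hcl hU
  obtain ⟨r, hr, hball⟩ := Metric.nhds_basis_closedBall.mem_iff.1 (mem_interior_iff_mem_nhds.1 hψ₀)
  obtain ⟨c₀, hc₀C, hc₀m⟩ := exists_max hX hne hc hconv hM ψ₀
  refine ⟨ψ₀, ψ₀ c₀ - r * (ε / 2), x k, ⟨c₀, hc₀C, by nlinarith [half_pos hε]⟩,
    fun c hcC hβ => norm_le_of_forall_dual fun φ hφ => ?_⟩
  have hmem : ψ₀ + r • φ ∈ Metric.closedBall ψ₀ r := by
    rw [mem_closedBall_iff_norm, add_sub_cancel_left, norm_smul, Real.norm_eq_abs, abs_of_pos hr]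
    nlinarith
  obtain ⟨c', hc'C, hc'm, hc'x⟩ := hball hmem
  have h1 := hc'm c hcC
  simp only [add_apply, smul_apply, smul_eq_mul] at h1
  have h2 := hc₀m c' hc'C
  have h3 : φ c - φ c' ≤ ε / 2 := by
    have : r * (φ c - φ c') ≤ r * (ε / 2) := by linarith
    exact le_of_mul_le_mul_left this hr
  have h4 := (dual_le_norm hφ (c' - x k)).trans hc'x
  rw [map_sub] at h4 ⊢
  linarith

/-- Baire kernel lemma: an ideal of subsets of a compact Hausdorff space that is the union of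
countably many closed sets `A k` contains everything, provided that it contains every closed set
all of whose closed subsets missing some fixed `A k` belong to the ideal. -/
theorem kernel_lemma {B : Type*} [TopologicalSpace B] [CompactSpace B] [T2Space B]
    (I : Set B → Prop) (h0 : I ∅) (hsub : ∀ L L', L ⊆ L' → I L' → I L)
    (hun : ∀ L L', I L → I L' → I (L ∪ L')) {ι : Type*} [Countable ι] (A : ι → Set B)
    (hA : ∀ k, IsClosed (A k)) (hAU : ⋃ k, A k = univ)
    (H : ∀ k L, IsClosed L → (∀ M, IsClosed M → M ⊆ L → Disjoint M (A k) → I M) → I L) :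
    I univ := by
  let G : Set B := {b | ∃ O ∈ 𝓝 b, I O}
  have hGo : IsOpen G := by
    rw [isOpen_iff_mem_nhds]
    rintro b ⟨O, hO, hI⟩
    filter_upwards [eventually_mem_nhds_iff.2 hO] with b' hb' using ⟨O, hb', hI⟩
  have hcomp : ∀ M, IsClosed M → M ⊆ G → I M := by
    intro M hM hMG
    refine hM.isCompact.induction_on h0 (fun s t hst ht => hsub s t hst ht)
      (fun s t hs ht => hun s t hs ht) fun b hb => ?_
    obtain ⟨O, hO, hI⟩ := hMG hb
    exact ⟨O, mem_nhdsWithin_of_mem_nhds hO, hI⟩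
  refine hcomp univ isClosed_univ fun b _ => ?_
  by_contra hb
  have hLc : IsClosed Gᶜ := hGo.isClosed_compl
  have : CompactSpace (Gᶜ : Set B) := isCompact_iff_compactSpace.1 hLc.isCompact
  have : Nonempty (Gᶜ : Set B) := ⟨⟨b, hb⟩⟩
  obtain ⟨k, b₁, hb₁⟩ := nonempty_interior_of_iUnion_of_closed
    (f := fun k => ((↑) : (Gᶜ : Set B) → B) ⁻¹' A k)
    (fun k => (hA k).preimage continuous_subtype_val)
    (by rw [← preimage_iUnion, hAU, preimage_univ])
  rw [mem_interior_iff_mem_nhds, nhds_subtype_eq_comap, mem_comap] at hb₁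
  obtain ⟨O, hO, hOA⟩ := hb₁
  obtain ⟨N, hN, hNc, hNO⟩ := exists_mem_nhds_isClosed_subset hO
  refine b₁.2 ⟨N, hN, H k N hNc fun M hM hMN hd => hcomp M hM fun m hm => ?_⟩
  by_contra hmG
  have : (⟨m, hmG⟩ : (Gᶜ : Set B)) ∈ ((↑) : (Gᶜ : Set B) → B) ⁻¹' O := hNO (hMN hm)
  exact disjoint_left.1 hd hm (hOA this)

end Crest.Agent.R108
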