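import Mathlib

/-!
# Weak limits along ultrafilters in reflexive spaces (row 108)
-/

set_option autoImplicit false

open Filter Topology Set

namespace Crest.Agent.R108

variable {X : Type*} [NormedAddCommGroup X] [NormedSpace ℝ X]

/-- Reflexivity: the canonical embedding into the bidual is onto. -/
def Refl (X : Type*) [NormedAddCommGroup X] [NormedSpace ℝ X] : Prop :=
  Function.Surjective (NormedSpace.inclusionInDoubleDual ℝ X)

/-- `f` tends weakly to `x` along `l`. -/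
def WLim {A : Type*} (l : Filter A) (f : A → X) (x : X) : Prop :=
  ∀ φ : StrongDual ℝ X, Tendsto (fun a => φ (f a)) l (𝓝 (φ x))

theorem dual_mem_closedBall_zero {Y : Type*} [NormedAddCommGroup Y] [NormedSpace ℝ Y]
    (F : StrongDual ℝ Y) (M : ℝ) : F ∈ Metric.closedBall (0 : StrongDual ℝ Y) M ↔ ‖F‖ ≤ M :=
  mem_closedBall_zero_iff

theorem exists_wlim (hX : Refl X) {A : Type*} (U : Ultrafilter A) (f : A → X) (M : ℝ)
    (hM : ∀ᶠ a in (U : Filter A), ‖f a‖ ≤ M) : ∃ x, WLim (U : Filter A) f x := by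
  have hc := WeakDual.isCompact_closedBall (𝕜 := ℝ) (E := StrongDual ℝ X)
    (0 : StrongDual ℝ (StrongDual ℝ X)) M
  let g : A → WeakDual ℝ (StrongDual ℝ X) :=
    fun a => StrongDual.toWeakDual (NormedSpace.inclusionInDoubleDual ℝ X (f a))
  have hle : ((U.map g : Ultrafilter _) : Filter _) ≤
      𝓟 (WeakDual.toStrongDual ⁻¹' Metric.closedBall (0 : StrongDual ℝ (StrongDual ℝ X)) M) := by
    rw [Ultrafilter.coe_map, le_principal_iff, mem_map]
    filter_upwards [hM] with a ha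
    simp only [g, mem_preimage, StrongDual.toStrongDual_toWeakDual]
    have h1 := (NormedSpace.double_dual_bound ℝ X (f a)).trans ha
    exact (dual_mem_closedBall_zero (Y := StrongDual ℝ X) _ M).2 h1
  obtain ⟨F, -, hF⟩ := hc.ultrafilter_le_nhds (U.map g) hle
  obtain ⟨x, hx⟩ := hX (WeakDual.toStrongDual F)
  refine ⟨x, fun φ => ?_⟩
  have h1 : Tendsto g (U : Filter A) (𝓝 F) := hF
  have h2 := ((WeakDual.eval_continuous φ).tendsto F).comp h1
  have h3 : F φ = φ x := by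
    have : (WeakDual.toStrongDual F) φ = φ x := by rw [← hx]; rfl
    exact this
  rw [h3] at h2
  exact h2

theorem WLim.mem {A : Type*} {l : Filter A} [l.NeBot] {f : A → X} {x : X} (h : WLim l f x)
    {S : Set X} (hS : Convex ℝ S) (hc : IsClosed S) (hf : ∀ᶠ a in l, f a ∈ S) : x ∈ S := by
  by_contra hx
  obtain ⟨φ, u, h1, h2⟩ := geometric_hahn_banach_closed_point hS hc hx
  have : φ x ≤ u := le_of_tendsto (h φ) (hf.mono fun a ha => (h1 _ ha).le)
  linarith

theorem WLim.sub {A : Type*} {l : Filter A} {f g : A → X} {x y : X} (h : WLim l f x)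
    (h' : WLim l g y) : WLim l (fun a => f a - g a) (x - y) := by
  intro φ
  simpa only [map_sub] using (h φ).sub (h' φ)

theorem WLim.add {A : Type*} {l : Filter A} {f g : A → X} {x y : X} (h : WLim l f x)
    (h' : WLim l g y) : WLim l (fun a => f a + g a) (x + y) := by
  intro φ
  simpa only [map_add] using (h φ).add (h' φ)

theorem WLim.smul {A : Type*} {l : Filter A} {f : A → X} {x : X} (h : WLim l f x) (c : ℝ) :
    WLim l (fun a => c • f a) (c • x) := by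
  intro φ
  simpa only [map_smul] using (h φ).const_smul c

theorem wlim_const {A : Type*} {l : Filter A} (x : X) : WLim l (fun _ => x) x :=
  fun _ => tendsto_const_nhds

theorem WLim.congr' {A : Type*} {l : Filter A} {f g : A → X} {x : X} (h : WLim l f x)
    (hfg : ∀ᶠ a in l, f a = g a) : WLim l g x := fun φ =>
  (h φ).congr' (hfg.mono fun a ha => by simp only [ha])

theorem WLim.norm_sub_le {A : Type*} {l : Filter A} [l.NeBot] {f : A → X} {x : X}
    (h : WLim l f x) {y : X} {r : ℝ} (hf : ∀ᶠ a in l, ‖f a - y‖ ≤ r) : ‖x - y‖ ≤ r := by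
  have := h.mem (convex_closedBall y r) Metric.isClosed_closedBall
    (hf.mono fun a ha => by rwa [mem_closedBall_iff_norm])
  rwa [mem_closedBall_iff_norm] at this

/-- A directed family of nonempty sets is contained in an ultrafilter. -/
theorem exists_ultrafilter_of_directed {A ι : Type*} [Nonempty ι] (V : ι → Set A)
    (hd : Directed (· ⊇ ·) V) (hne : ∀ i, (V i).Nonempty) :
    ∃ U : Ultrafilter A, ∀ i, V i ∈ U := by
  have hd' : Directed (· ≥ ·) fun i => 𝓟 (V i) := by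
    intro i j
    obtain ⟨k, hk1, hk2⟩ := hd i j
    exact ⟨k, principal_mono.2 hk1, principal_mono.2 hk2⟩
  have : (⨅ i, 𝓟 (V i)).NeBot :=
    iInf_neBot_of_directed' hd' fun i => principal_neBot_iff.2 (hne i)
  refine ⟨Ultrafilter.of (⨅ i, 𝓟 (V i)), fun i => ?_⟩
  exact Ultrafilter.of_le (⨅ i, 𝓟 (V i)) (mem_iInf_of_mem i (mem_principal_self _))

/-- A family `V δ`, monotone in `δ > 0`, of nonempty sets is contained in an ultrafilter. -/
theorem exists_ultrafilter_of_mono {A : Type*} (V : ℝ → Set A)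
    (hm : ∀ δ δ', 0 < δ → δ ≤ δ' → V δ ⊆ V δ') (hne : ∀ δ, 0 < δ → (V δ).Nonempty) :
    ∃ U : Ultrafilter A, ∀ δ, 0 < δ → V δ ∈ U := by
  have : Nonempty {δ : ℝ // 0 < δ} := ⟨⟨1, one_pos⟩⟩
  obtain ⟨U, hU⟩ := exists_ultrafilter_of_directed (fun δ : {δ : ℝ // 0 < δ} => V δ.1)
    (fun a b => ⟨⟨min a.1 b.1, lt_min a.2 b.2⟩, hm _ _ (lt_min a.2 b.2) (min_le_left _ _),
      hm _ _ (lt_min a.2 b.2) (min_le_right _ _)⟩) (fun δ => hne δ.1 δ.2)
  exact ⟨U, fun δ hδ => hU ⟨δ, hδ⟩⟩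

/-- A family `V δ Ψ`, monotone in `δ > 0` and antitone in the finite set `Ψ`, of nonempty sets is
contained in an ultrafilter. -/
theorem exists_ultrafilter_of_mono₂ {A B : Type*} (V : ℝ → Finset B → Set A)
    (hm : ∀ δ δ' Ψ Ψ', 0 < δ → δ ≤ δ' → Ψ' ⊆ Ψ → V δ Ψ ⊆ V δ' Ψ')
    (hne : ∀ δ Ψ, 0 < δ → (V δ Ψ).Nonempty) :
    ∃ U : Ultrafilter A, ∀ δ Ψ, 0 < δ → V δ Ψ ∈ U := by
  classical
  have : Nonempty ({δ : ℝ // 0 < δ} × Finset B) := ⟨(⟨1, one_pos⟩, ∅)⟩
  obtain ⟨U, hU⟩ := exists_ultrafilter_of_directed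
    (fun p : {δ : ℝ // 0 < δ} × Finset B => V p.1.1 p.2)
    (fun a b => ⟨(⟨min a.1.1 b.1.1, lt_min a.1.2 b.1.2⟩, a.2 ∪ b.2),
      hm _ _ _ _ (lt_min a.1.2 b.1.2) (min_le_left _ _) Finset.subset_union_left,
      hm _ _ _ _ (lt_min a.1.2 b.1.2) (min_le_right _ _) Finset.subset_union_right⟩)
    (fun p => hne p.1.1 p.2 p.1.2)
  exact ⟨U, fun δ Ψ hδ => hU (⟨δ, hδ⟩, Ψ)⟩

theorem norm_le_of_forall_dual {x : X} {a : ℝ}
    (h : ∀ φ : StrongDual ℝ X, ‖φ‖ ≤ 1 → φ x ≤ a) : ‖x‖ ≤ a := by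
  obtain ⟨g, hg1, hg2⟩ := exists_dual_vector'' ℝ x
  have := h g hg1
  rw [hg2] at this
  simpa using this

theorem dual_le_norm {φ : StrongDual ℝ X} (hφ : ‖φ‖ ≤ 1) (x : X) : φ x ≤ ‖x‖ := by
  have h1 := φ.le_opNorm x
  have h2 : φ x ≤ ‖φ x‖ := le_abs_self _
  have h3 : ‖φ‖ * ‖x‖ ≤ 1 * ‖x‖ := mul_le_mul_of_nonneg_right hφ (norm_nonneg _)
  linarith

/-- A continuous functional attains its maximum on a nonempty closed bounded convex set. -/
theorem exists_max (hX : Refl X) {C : Set X} (hne : C.Nonempty) (hc : IsClosed C)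
    (hconv : Convex ℝ C) {M : ℝ} (hM : ∀ x ∈ C, ‖x‖ ≤ M) (φ : StrongDual ℝ X) :
    ∃ c ∈ C, ∀ c' ∈ C, φ c' ≤ φ c := by
  have : Nonempty C := hne.to_subtype
  obtain ⟨U, hU⟩ := exists_ultrafilter_of_directed
    (fun y : C => {x | x ∈ C ∧ φ y ≤ φ x})
    (fun a b => by
      rcases le_total (φ a) (φ b) with h | h
      · exact ⟨b, fun x hx => ⟨hx.1, h.trans hx.2⟩, fun x hx => hx⟩
      · exact ⟨a, fun x hx => hx, fun x hx => ⟨hx.1, h.trans hx.2⟩⟩)
    (fun y => ⟨y, y.2, le_rfl⟩)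
  obtain ⟨y₀⟩ := this
  have hCU : ∀ᶠ x in (U : Filter X), x ∈ C := by
    filter_upwards [hU y₀] with x hx using hx.1
  obtain ⟨z, hz⟩ := exists_wlim hX U id M (hCU.mono fun x hx => hM x hx)
  refine ⟨z, hz.mem hconv hc hCU, fun c' hc' => ?_⟩
  refine ge_of_tendsto (hz φ) ?_
  filter_upwards [hU ⟨c', hc'⟩] with x hx using hx.2

end Crest.Agent.R108
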